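import Vale.Agent.P241.H640.Glue
import Vale.Agent.P241.H963.Adapt2
import Vale.Agent.P241.H568.OfAdapted
import Vale.Agent.P241.KR.Basic

/-!
# P241, block YOUNG: the statement `YoungStmt`

`K` an associative graded field (`KR.GField`), `X` an object with a tower of cells (`H169.Tow`), for
example the suspension spectrum of a finite cell space, `b` a basis of `K_* X`.

* `kill_of_tow` : if `2 * rank + 1 ≤ r` then the Young symmetrizer acts as zero on `K ⊗ X^(⊗M)`;
* `survive_of_tow` : it does not if the even rank is at least `r`;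
* `youngStmt` : the block `R.YoungStmt`.
-/

open CategoryTheory MonoidalCategory Limits Pretriangulated MonObj
open Vale.Agent.P251.T Vale.Agent.P251.M
open Vale.Agent.P241.YK Vale.Agent.P241.H169 Vale.Agent.P241.H568
open Vale.Agent.P093.SymPow Vale.Agent.P093.N.Young

set_option linter.unusedSectionVars false

universe v u

noncomputable section

namespace Vale.Agent.P241.H640

section general

variable {T : Type u} [Category.{v} T] [Preadditive T] [HasZeroObject T]
    [HasShift T ℤ] [∀ n : ℤ, (shiftFunctor T n).Additive] [Pretriangulated T]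
    [MonoidalCategory T] [SymmetricCategory T] [TensorTriangulated T]
    {K : T} [MonObj K]

/-- the letters over a tower as a basis -/
def towBasis {n : ℕ} {t : Tower T n} (hK : SphK K) : KR.KBasis K (t.E 0) (JI t K) where
  e i := i.e
  x i := i.z
  bij j := by
    constructor
    · intro c c' h
      have h1 : ∑ i, (c i - c' i) ≫ lext i.z = 0 := by
        simp only [Preadditive.sub_comp, Finset.sum_sub_distrib]
        exact sub_eq_zero.2 h
      funext i
      exact sub_eq_zero.1 (coeff_eq_zero hK j (fun i => c i - c' i) h1 i)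
    · intro y
      obtain ⟨c, -, hc⟩ := exists_coeff (t := t) hK 0 j y
      refine ⟨c, ?_⟩
      change ∑ i, c i ≫ lext i.z = y
      rw [← hc]
      change y ≫ K ◁ 𝟙 _ = y
      rw [MonoidalCategory.whiskerLeft_id, Category.comp_id]

variable {q : ℕ} (hG : KR.GField K q) (hK : SphK K) [HasFiniteBiproducts T]
  (hgen : ∀ X : T, (∀ (n : ℤ) (f : (𝟙_ T)⟦n⟧ ⟶ X), f = 0) → IsZero X)
  {p : ℕ} (hp : p.Prime) (hs : ∀ n : ℤ, ¬ (p : ℤ) ∣ n → ∃ s : K ⟶ K, n • s = 𝟙 K)
  {X : T} (hX : Tow X) {J : Type} [Fintype J] (b : KR.KBasis K X J) {r : ℕ}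

include hG hK hgen hp hs hX b in
/-- **Kill.** -/
theorem kill_of_tow (hr : 2 * Fintype.card J + 1 ≤ r) :
    K ◁ (permAlg X (M p r) (Y p r) : tpow X (M p r) ⟶ tpow X (M p r)) = 0 := by
  obtain ⟨n, t, rfl⟩ := hX.exists_tower
  obtain ⟨W, ⟨d⟩⟩ := exists_dec (fun i : JI t K => (𝟙_ T)⟦i.e⟧)
  refine kill_of_adapted (e := fun i => i.e) hp (adapted hK hgen d) (fun i => ⟨Iso.refl _⟩) hs ?_
  rwa [KR.KBasis.card_eq hG (towBasis hK) b]

include hG hK hgen hp hs hX b in
/-- **Survive.** -/
theorem survive_of_tow (h0 : ¬ IsZero K) (hr : r ≤ b.ev) :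
    K ◁ (permAlg X (M p r) (Y p r) : tpow X (M p r) ⟶ tpow X (M p r)) ≠ 0 := by
  obtain ⟨n, t, rfl⟩ := hX.exists_tower
  obtain ⟨W, ⟨d⟩⟩ := exists_dec (fun i : JI t K => (𝟙_ T)⟦i.e⟧)
  refine survive_of_adapted (e := fun i => i.e) hp (adapted hK hgen d) (fun i => ⟨Iso.refl _⟩) hs
    h0 ?_
  rwa [KR.KBasis.ev_eq hG b (towBasis hK)] at hr

end general

section stmt

open Vale.Agent.P251.St Vale.Agent.P251.St.SHCat Vale.Agent.P241.St

variable {T : SHCat} (S : Susp T)

theorem tow_susp {P : Space} (hP : FC P) : Tow (S.obj P) :=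
  Tow.space S.toSpaceFunctor ⟨toLC P, fc_toLC hP⟩

theorem not_isZero_of_gfield {K : T.C} [MonObj K] {q : ℕ} (hG : KR.GField K q) : ¬ IsZero K :=
  fun h => hG.ne (h.eq_of_tgt _ _)

/-- **YOUNG.** -/
theorem youngStmt_of_gfield {p : ℕ} (hp : p.Prime)
    (hG : ∀ (n : ℕ) (K : RingA T), IsMoravaK S p n K → ∃ q, KR.GField K.obj q ∧ SphK K.obj) :
    R.YoungStmt S p := by
  refine youngStmt_of S hp ?_ ?_
  · intro n K hK P hP e o hr r h
    obtain ⟨q, hq, hs⟩ := hG n K hK
    obtain ⟨J, _, b, rfl, rfl⟩ := hr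
    refine kill_of_tow hq hs StableCat.generator hp (fun m hm => exists_zsmul_one hp hK hm)
      (tow_susp S hP) b ?_
    rwa [KR.KBasis.ev_add_od] at h
  · intro n K hK P hP e o hr r h
    obtain ⟨q, hq, hs⟩ := hG n K hK
    obtain ⟨J, _, b, rfl, rfl⟩ := hr
    exact survive_of_tow hq hs StableCat.generator hp (fun m hm => exists_zsmul_one hp hK hm)
      (tow_susp S hP) b (not_isZero_of_gfield hq) h

end stmt

end Vale.Agent.P241.H640
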