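import Vale.Agent.P241.R.TSide
import Vale.Agent.P093.N.PLocSp

/-!
# P241, block YOUNG: from the Young symmetrizer to the cone of `c - h`

`c = permAlg X (M p r) (Y p r)`, `h = nY p r`, `c² = h c`, `p ∤ h`.

* `exists_zsmul_one` : an integer which is prime to `p` acts invertibly on `K(n)`.
* `acyclic_cone` : if `K ◁ c = 0` then the cone of `c - h` is `K`-acyclic.
* `not_acyclic_cone` : if `K ◁ c ≠ 0` then it is not.
* `youngStmt_of` : `YoungStmt` from the two statements on `K ◁ c`.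
-/

open CategoryTheory MonoidalCategory Limits Pretriangulated
open Vale.Agent.P251.St Vale.Agent.P251.St.SHCat Vale.Agent.P241.St
open Vale.Agent.P251.T
open Vale.Agent.P251.S hiding Acyclic
open Vale.Agent.P093.SymPow Vale.Agent.P093.N.Young

noncomputable section

namespace Vale.Agent.P241.H640

section unit

variable {T : SHCat} {S : Susp T}

/-- an integer which acts invertibly on the unit acts invertibly on `K` -/
theorem exists_zsmul_one_of_unit (K : RingA T) {m : ℤ} (g : Hom T.one K.obj)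
    (hg : m • g = K.unit) : ∃ s : K.obj ⟶ K.obj, m • s = 𝟙 K.obj := by
  refine ⟨(λ_ K.obj).inv ≫ g ▷ K.obj ≫ MonObj.mul, ?_⟩
  have h1 : (λ_ K.obj).inv ≫ (m • g) ▷ K.obj ≫ MonObj.mul = 𝟙 K.obj := by
    rw [hg]
    change (λ_ K.obj).inv ≫ MonObj.one ▷ K.obj ≫ MonObj.mul = 𝟙 K.obj
    rw [MonObj.one_mul, Iso.inv_hom_id]
  rw [← h1, Vale.Agent.P093.PLoc.whiskerRight_zsmul, Preadditive.zsmul_comp,
    Preadditive.comp_zsmul]

/-- an integer which is prime to `p` acts invertibly on `K(n)` -/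
theorem exists_zsmul_one {p : ℕ} (hp : p.Prime) {n : ℕ} {K : RingA T} (hK : IsMoravaK S p n K)
    {m : ℤ} (hm : ¬ (p : ℤ) ∣ m) : ∃ s : K.obj ⟶ K.obj, m • s = 𝟙 K.obj := by
  unfold IsMoravaK at hK
  split_ifs at hK with hn
  · have hm0 : m ≠ 0 := fun h => hm (h ▸ dvd_zero _)
    obtain ⟨g, hg⟩ := (hK.div m hm0).2 K.unit
    exact exists_zsmul_one_of_unit K g hg
  · have hc : (p : ℤ) • K.unit = 0 := hK.1.char
    have hcop : IsCoprime m (p : ℤ) := by
      rw [isCoprime_comm]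
      exact (Nat.prime_iff_prime_int.1 hp).coprime_iff_not_dvd.2 hm
    obtain ⟨a, b, hab⟩ := hcop
    refine exists_zsmul_one_of_unit K (a • K.unit) ?_
    rw [smul_smul, mul_comm m a]
    have h1 : a * m = 1 - b * p := by rw [← hab]; ring
    rw [h1, sub_smul, one_smul, mul_smul, hc, smul_zero, sub_zero]

end unit

section cone

variable {T : SHCat} {K X Y Z : T.C}

theorem isIso_zsmul {m : ℤ} {s : K ⟶ K} (hs : m • s = 𝟙 K) (X : T.C) :
    IsIso (m • 𝟙 (K ⊗ X)) := by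
  have h1 : m • (s ▷ X) = 𝟙 (K ⊗ X) := by
    rw [← Vale.Agent.P093.PLoc.whiskerRight_zsmul, hs, id_whiskerRight]
  refine ⟨s ▷ X, ?_, ?_⟩
  · rw [Preadditive.zsmul_comp, Category.id_comp, h1]
  · rw [Preadditive.comp_zsmul, Category.comp_id, h1]

/-- the third object of a triangle is `K`-acyclic iff `K ◁ f` is an isomorphism -/
theorem acyclic_iff_isIso {f : X ⟶ Y} {g : Y ⟶ Z} {h : Z ⟶ X⟦(1 : ℤ)⟧}
    (H : Triangle.mk f g h ∈ distTriang T.C) : Acyclic K Z ↔ IsIso (K ◁ f) := by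
  have H1 := dist_whiskerLeft K H
  have h1 := Triangle.isZero₃_iff_isIso₁ _ H1
  exact (IsZero.iff_id_eq_zero _).symm.trans h1

end cone

section young

variable {T : SHCat} {p r : ℕ} {K X Z : T.C}

/-- the Young symmetrizer `c` -/
abbrev cY (p r : ℕ) (X : T.C) : tpow X (M p r) ⟶ tpow X (M p r) :=
  permAlg X (M p r) (Y p r)

theorem cY_cY (p r : ℕ) (X : T.C) : cY p r X ≫ cY p r X = nY p r • cY p r X := by
  have h1 := permAlg_mul X (M p r) (Y p r) (Y p r)
  rw [Y_mul_Y, map_zsmul] at h1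
  exact h1.symm

theorem youngMap_eq (p r : ℕ) (X : T.C) :
    R.youngMap p r X = cY p r X - nY p r • 𝟙 (tpow X (M p r)) := rfl

theorem cY_youngMap (p r : ℕ) (X : T.C) : cY p r X ≫ R.youngMap p r X = 0 := by
  rw [youngMap_eq, Preadditive.comp_sub, cY_cY, Preadditive.comp_zsmul, Category.comp_id, sub_self]

theorem whiskerLeft_youngMap (p r : ℕ) (K X : T.C) : K ◁ R.youngMap p r X =
    K ◁ cY p r X - nY p r • 𝟙 (K ⊗ tpow X (M p r)) := by
  rw [youngMap_eq, sub_eq_add_neg, MonoidalPreadditive.whiskerLeft_add, ← neg_smul,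
    Vale.Agent.P093.PLoc.whiskerLeft_zsmul, MonoidalCategory.whiskerLeft_id, neg_smul,
    ← sub_eq_add_neg]

/-- **Kill.** -/
theorem acyclic_cone {s : K ⟶ K} (hs : nY p r • s = 𝟙 K) (h0 : K ◁ cY p r X = 0)
    {g : tpow X (M p r) ⟶ Z} {h : Z ⟶ (tpow X (M p r))⟦(1 : ℤ)⟧}
    (H : Triangle.mk (R.youngMap p r X) g h ∈ distTriang T.C) : Acyclic K Z := by
  rw [acyclic_iff_isIso H, whiskerLeft_youngMap, h0, zero_sub, ← neg_smul]
  have h1 : (-nY p r) • (-s) = 𝟙 K := by rw [neg_smul_neg, hs]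
  exact isIso_zsmul h1 _

/-- **Survive.** -/
theorem not_acyclic_cone (h0 : K ◁ cY p r X ≠ 0)
    {g : tpow X (M p r) ⟶ Z} {h : Z ⟶ (tpow X (M p r))⟦(1 : ℤ)⟧}
    (H : Triangle.mk (R.youngMap p r X) g h ∈ distTriang T.C) : ¬ Acyclic K Z := by
  rw [acyclic_iff_isIso H]
  intro hi
  refine h0 ?_
  have h1 : K ◁ cY p r X ≫ K ◁ R.youngMap p r X = 0 := by
    rw [← MonoidalCategory.whiskerLeft_comp, cY_youngMap]
    exact (tensorLeft K).map_zero _ _
  exact (Preadditive.IsIso.comp_right_eq_zero _ _).1 h1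

end young

/-- **YOUNG** from the two statements on `K ◁ c`. -/
theorem youngStmt_of {T : SHCat} (S : Susp T) {p : ℕ} (hp : p.Prime)
    (hk : ∀ (n : ℕ) (K : RingA T), IsMoravaK S p n K → ∀ (P : Space), FC P →
      ∀ (e o : ℕ), R.HasRk K (S.obj P) e o → ∀ r : ℕ, 2 * (e + o) + 1 ≤ r →
        K.obj ◁ cY p r (S.obj P) = 0)
    (hs : ∀ (n : ℕ) (K : RingA T), IsMoravaK S p n K → ∀ (P : Space), FC P →
      ∀ (e o : ℕ), R.HasRk K (S.obj P) e o → ∀ r : ℕ, r ≤ e →
        K.obj ◁ cY p r (S.obj P) ≠ 0) : R.YoungStmt S p := by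
  intro n K hK P hP e o hr r Z g h H
  obtain ⟨s, hs'⟩ := exists_zsmul_one hp hK (not_dvd_nY hp r)
  exact ⟨fun h1 => acyclic_cone hs' (hk n K hK P hP e o hr r h1) H,
    fun h1 => not_acyclic_cone (hs n K hK P hP e o hr r h1) H⟩

end Vale.Agent.P241.H640
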