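import Vale.Agent.P241.H640.YStmt
import Vale.Agent.P241.H963.Gf
import Vale.Agent.P241.BD2.KAll

/-!
# P241: the block YOUNG, without hypotheses
-/

open Vale.Agent.P251.St Vale.Agent.P251.St.SHCat Vale.Agent.P241.St

namespace Vale.Agent.P241.H640

/-- **YOUNG.** -/
theorem youngStmt {T : SHCat} (S : Susp T) {p : ℕ} [hp : Fact p.Prime] : R.YoungStmt S p :=
  youngStmt_of_gfield S hp.out fun _ _ hK =>
    ⟨_, BD2.gfield hK, YK.sphK_of_gfield (BD2.gfield hK)⟩

end Vale.Agent.P241.H640
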